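import Vale.Agent.P167.QN.Fresh
import Vale.Agent.P167.FKA.Wir
import Vale.Agent.P167.N.QC.Sep

/-!
# P167, `0 < q < 1`: fresh crossings of an annulus are unlikely, domains with few islands

`FrB Q α C m`: the bound `C (r / R) ^ α` for the probability of a fresh crossing (primal or dual) of
the annulus `(x; r, R)`, for all domains whose frozen squares form at most `m` islands in the box.
`fz_sdiff`: the condition on the frozen squares after an exploration.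
-/

set_option autoImplicit false
set_option linter.unusedVariables false

namespace Vale.Agent.P167.N.QN

open Finset Relation Vale.Agent.P167 Vale.Agent.P167.FK Vale.Agent.P167.FKA
open Vale.Agent.P145.FB (PStep PConn)
open Vale.Agent.P167.H166 (cl bxx mem_bxx)
open Vale.Agent.P167.H192.TA (Pw)
open Vale.Agent.P167.H259 (f_markov)
open Vale.Agent.P167.H167.Q (mem_Bq bq_mono nm_of_notMem nm_of_mem)
open Vale.Agent.P167.QN (Ann mem_Ann FreshP FreshD KS F0 CrD fresh_sub ind_KS fresh_dual)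
open Vale.Agent.P167.N.QC

variable {x : ℤ × ℤ} {r R : ℤ} {D : Finset (ℤ × ℤ)} {η : Cfg}

theorem lv_Ann {v : ℤ × ℤ} (h1 : r < lv x v) (h2 : lv x v < R) : v ∈ Ann x r R := by
  rw [mem_Ann, mem_Bq, mem_Bq]
  rw [lt_lv] at h1
  have h3 := (lv_le (x := x) (v := v) (r := R - 1)).1 (by omega)
  simp only [abs_le, lt_abs] at *
  omega

theorem Ann_lv {v : ℤ × ℤ} (h : v ∈ Ann x r R) : lv x v ≤ R := by
  rw [mem_Ann, mem_Bq, mem_Bq] at h
  rw [lv_le]
  simp only [abs_le]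
  omega

/-! ### Weak chains -/

theorem wa_symm {a b : ℤ × ℤ} (h : Wa η a b) : Wa η b a := by
  obtain ⟨u, h1, h2, h3⟩ := h
  refine ⟨u, h2, h1, ?_⟩
  rcases h3 with ⟨h3, h4⟩ | ⟨h3, h4⟩
  · exact Or.inl ⟨h3, h4.symm⟩
  · exact Or.inr ⟨h3, h4.symm⟩

theorem wc_symm {a b : ℤ × ℤ} (h : QC.Wc D η a b) : QC.Wc D η b a := by
  induction h with
  | refl => exact ReflTransGen.refl
  | tail _ h ih => exact (ReflTransGen.single ⟨h.2.1, h.1, wa_symm h.2.2⟩).trans ih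

/-- A smaller domain, another configuration with the same values at the frozen squares. -/
theorem wc_mono {D' : Finset (ℤ × ℤ)} {ω : Cfg} (hD : D' ⊆ D) (hω : ∀ v, v ∉ D → ω v = η v)
    {a b : ℤ × ℤ} (h : QC.Wc D η a b) : QC.Wc D' ω a b := by
  induction h with
  | refl => exact ReflTransGen.refl
  | @tail b c _ h ih =>
    refine ih.tail ⟨fun h1 => h.1 (hD h1), fun h1 => h.2.1 (hD h1), ?_⟩
    obtain ⟨u, h1, h2, h3⟩ := h.2.2
    refine ⟨u, h1, h2, ?_⟩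
    rw [hω _ h.1, hω _ h.2.1]
    exact h3

/-- The condition depends only on the colours of the frozen squares. -/
theorem fz_congr {m : ℕ} {ω : Cfg} (h : Fz m x R D η) (hω : ∀ v, v ∉ D → ω v = η v) :
    Fz m x R D ω := by
  obtain ⟨P, hP, h⟩ := h
  refine ⟨P, hP, fun v hv h1 => ?_⟩
  obtain ⟨w, hw, h2⟩ := h v hv h1
  exact ⟨w, hw, wc_mono subset_rfl hω h2⟩

/-- After the exploration of squares which are joined to the frozen squares there are no new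
islands. -/
theorem fz_sdiff {m : ℕ} {K : Finset (ℤ × ℤ)} {ω : Cfg}
    (h : Fz m x R D η) (hω : ∀ v, v ∉ D → ω v = η v)
    (hK : ∀ v ∈ K, ∃ w, w ∉ D ∧ QC.Wc (D \ K) ω v w) : Fz m x R (D \ K) ω := by
  classical
  obtain ⟨P, hP, h⟩ := h
  refine ⟨P, hP, fun v hv h1 => ?_⟩
  have hsub : D \ K ⊆ D := Finset.sdiff_subset
  by_cases hvD : v ∈ D
  · have hvK : v ∈ K := by
      by_contra h2
      exact hv (Finset.mem_sdiff.2 ⟨hvD, h2⟩)
    obtain ⟨w, hw, h2⟩ := hK v hvK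
    rcases le_or_gt R (lv x w) with h3 | h3
    · exact ⟨w, Or.inl h3, h2⟩
    · obtain ⟨w', h4, h5⟩ := h w hw h3.le
      exact ⟨w', h4, h2.trans (wc_mono hsub hω h5)⟩
  · obtain ⟨w, hw, h2⟩ := h v hvD h1
    exact ⟨w, hw, wc_mono hsub hω h2⟩

/-- **After the exploration of the clusters of the frozen open squares of the annulus there are no
new islands.** -/
theorem isl_KS {m : ℕ} {ζ ω : Cfg} (h : Fz m x R D η) (hζ : ∀ v, v ∉ D → ζ v = η v) :
    Isl m x (r + 1) (R - 2)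
      (rest (D ∩ Ann x r R) (KS (D ∩ Ann x r R) (F0 x r R (D ∩ Ann x r R) ζ) ω)) := by
  obtain ⟨P, hP, h⟩ := h
  set D₁ := D ∩ Ann x r R with hD₁
  set K := KS D₁ (F0 x r R D₁ ζ) ω with hK
  have hsub : rest D₁ K ⊆ D₁ := fun v hv => (mem_rest.1 hv).1
  have htouch : {v : ℤ × ℤ | ∃ u ∈ K, Cor v u} ⊆ Cf x (r + 1) (R - 2) (rest D₁ K) := by
    rintro w ⟨u, hu, hc⟩ hw
    exact absurd hc ((mem_rest.1 hw).2 u hu)
  have hoff : ∀ v, v ∉ D → v ∈ Cf x (r + 1) (R - 2) (rest D₁ K) := fun v hv hv' =>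
    absurd (Finset.mem_inter.1 (hsub hv')).1 hv
  -- a frozen square
  have key : ∀ v w, QC.Wc D η v w → v ∉ D → (R ≤ lv x w ∨ w ∈ P) →
      ∃ w', (lv x w' ≤ r + 1 ∨ R - 2 < lv x w' ∨ w' ∈ P) ∧
        Oc (Cf x (r + 1) (R - 2) (rest D₁ K)) v w' := by
    intro v w hvw
    induction hvw using ReflTransGen.head_induction_on with
    | refl =>
      intro hw h1
      rcases h1 with h1 | h1
      · exact ⟨w, Or.inr (Or.inl (by omega)), Oc.refl⟩
      · exact ⟨w, Or.inr (Or.inr h1), Oc.refl⟩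
    | @head a b hab _ ih =>
      intro ha h1
      obtain ⟨-, hb, u, c1, c2, h3⟩ := hab
      by_cases h4 : lv x a ≤ r + 1
      · exact ⟨a, Or.inl h4, Oc.refl⟩
      by_cases h5 : R - 2 < lv x a
      · exact ⟨a, Or.inr (Or.inl h5), Oc.refl⟩
      have hab1 : lv x b ≤ lv x a + 1 := lv_cor c1 c2
      have hab2 : lv x a ≤ lv x b + 1 := lv_cor c2 c1
      obtain ⟨w', h6, h7⟩ := ih hb h1
      refine ⟨w', h6, Oc.trans ?_ h7⟩
      rcases h3 with ⟨h3, -⟩ | ⟨h3, h8⟩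
      · exact Oc.one (hoff a ha) (hoff b hb) ⟨u, h3, c1, c2⟩
      · have huK : u ∈ K := by
          rcases h8 with h8 | h8
          · exact QN.F0_sub ⟨Int.even_iff.2 h3, a, lv_Ann (by omega) (by omega),
              fun h9 => ha (Finset.mem_inter.1 h9).1, by rw [hζ a ha]; exact h8, c1⟩
          · exact QN.F0_sub ⟨Int.even_iff.2 h3, b, lv_Ann (by omega) (by omega),
              fun h9 => hb (Finset.mem_inter.1 h9).1, by rw [hζ b hb]; exact h8, c2⟩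
        exact (around h3 c1 c2).mono fun v hv => htouch ⟨u, huK, hv⟩
  refine ⟨P, hP, fun v hv h1 h2 => ?_⟩
  have hvA : v ∈ Ann x r R := lv_Ann (by omega) (by omega)
  by_cases hvD : v ∈ D
  · rw [mem_rest] at hv
    push Not at hv
    obtain ⟨t, ht, hc⟩ := hv (Finset.mem_inter.2 ⟨hvD, hvA⟩)
    obtain ⟨s, hs, g6⟩ := ht
    obtain ⟨g5, v0, g1, g2, g3, g4⟩ := hs
    have h3 : Oc {v | ∃ u ∈ K, Cor v u} v0 v := touch_path (K := K) (G := Op D₁ ω)
      (Int.even_iff.1 g5) g6 (fun u hu => ⟨s, ⟨g5, v0, g1, g2, g3, g4⟩, hu⟩) g4 hc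
    have hv0 : v0 ∉ D := fun h9 => g2 (Finset.mem_inter.2 ⟨h9, g1⟩)
    obtain ⟨w, hw, h4⟩ := h v0 hv0 (Ann_lv g1)
    obtain ⟨w', h5, h6⟩ := key v0 w h4 hv0 hw
    exact ⟨w', h5, (h3.symm.mono htouch).trans h6⟩
  · obtain ⟨w, hw, h3⟩ := h v hvD (by omega)
    exact key v w h3 hvD hw

/-- The bound for a domain with at most `m` islands (the form of `QC.ut_isl`). -/
def UIs (Q α C : ℝ) (m : ℕ) : Prop := ∀ (x : ℤ × ℤ) (r R : ℤ), 1 ≤ r → r ≤ R →
  ∀ D : Finset (ℤ × ℤ), Isl m x r R D → ∀ ζ : Cfg, Good ζ →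
    Pr Q (D ∩ An x r R) ζ (Xr x r R (D ∩ An x r R)) ≤ C * ((r : ℝ) / R) ^ α

/-- The bound for the fresh crossings. -/
def FrB (Q α C : ℝ) (m : ℕ) : Prop := ∀ (x : ℤ × ℤ) (r R : ℤ), 1 ≤ r → r ≤ R →
  ∀ (D : Finset (ℤ × ℤ)) (η : Cfg), Good η → Fz m x R D η →
    Pr Q D η {ω | FreshP x r R D ω ∨ FreshD x r R D ω} ≤ C * ((r : ℝ) / R) ^ α

theorem crD_xr {ω : Cfg} (h : CrD x r R D ω) : ω ∈ Xr x (r + 1) (R - 2) (D ∩ An x (r + 1) (R - 2)) := by
  obtain ⟨s, t, h1, h2, h3, h4⟩ := h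
  exact Xr_sub (x := x) (r := r) (R := R) (by omega) (by omega) ω
    ⟨s, t, Int.even_iff.1 h1, by omega, by omega, h4⟩

/-- The bound without the exploration. -/
theorem crD_le {Q α C : ℝ} {m : ℕ} (hQ : 0 < Q) (hα : 0 < α) (hC : 0 < C) (hU : UIs Q α C m)
    (hr : 1 ≤ r) (hrR : r ≤ R) (hη : Good η) (hI : Isl m x (r + 1) (R - 2) D) :
    Pr Q D η {ω | CrD x r R D ω} ≤ (C * 3 ^ α + 6 ^ α) * ((r : ℝ) / R) ^ α := by
  have hr' : (1 : ℝ) ≤ r := by exact_mod_cast hr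
  have hR' : (r : ℝ) ≤ R := by exact_mod_cast hrR
  have hq : 0 < (r : ℝ) / R := div_pos (by linarith) (by linarith)
  have e : (C * 3 ^ α + 6 ^ α) * ((r : ℝ) / R) ^ α = C * (3 * ((r : ℝ) / R)) ^ α +
      (6 * ((r : ℝ) / R)) ^ α := by
    rw [Real.mul_rpow (by norm_num) hq.le, Real.mul_rpow (by norm_num) hq.le]
    ring
  rw [e]
  have p1 : 0 < (3 * ((r : ℝ) / R)) ^ α := Real.rpow_pos_of_pos (by positivity) _
  have p2 : 0 < (6 * ((r : ℝ) / R)) ^ α := Real.rpow_pos_of_pos (by positivity) _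
  by_cases h6 : (R : ℝ) ≤ 6 * r
  · have h1 : (1 : ℝ) ≤ (6 * ((r : ℝ) / R)) ^ α := by
      refine Real.one_le_rpow ?_ hα.le
      rw [← mul_div_assoc, le_div_iff₀ (by linarith)]
      linarith
    have h2 := Pr_le_one (D := D) (η := η) hQ {ω | CrD x r R D ω}
    have := mul_pos hC p1
    linarith
  · push Not at h6
    have h6' : 6 * r < R := by exact_mod_cast h6
    have h1 := Xr_le hQ Finset.inter_subset_left (hU x (r + 1) (R - 2) (by omega) (by omega) D hI) hη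
    have h2 : Pr Q D η {ω | CrD x r R D ω} ≤
        Pr Q D η (Xr x (r + 1) (R - 2) (D ∩ An x (r + 1) (R - 2))) :=
      Pr_mono hQ fun ω hω => crD_xr hω
    refine (h2.trans h1).trans ?_
    have h3 : (((r + 1 : ℤ) : ℝ) / ((R - 2 : ℤ) : ℝ)) ^ α ≤ (3 * ((r : ℝ) / R)) ^ α := by
      have hR2 : (0 : ℝ) < (R : ℝ) - 2 := by linarith
      refine Real.rpow_le_rpow ?_ ?_ hα.le
      · push_cast
        exact div_nonneg (by linarith) hR2.le
      · push_cast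
        rw [← mul_div_assoc, div_le_div_iff₀ hR2 (by linarith)]
        nlinarith
    have h4 := mul_le_mul_of_nonneg_left h3 hC.le
    linarith

/-- **Fresh crossings**, for a domain in the annulus. -/
theorem fresh_aux {Q a : ℝ} (hQ : 0 < Q) {D₁ : Finset (ℤ × ℤ)} {ζ : Cfg} (hD : D₁ ⊆ Ann x r R)
    (hζ : Good ζ) (hU : ∀ S ⊆ D₁, Pr Q (rest D₁ (KS D₁ (F0 x r R D₁ ζ) (cf D₁ ζ S))) (cf D₁ ζ S)
      {ω | CrD x r R (rest D₁ (KS D₁ (F0 x r R D₁ ζ) (cf D₁ ζ S))) ω} ≤ a) :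
    Pr Q D₁ ζ {ω | FreshP x r R D₁ ω} ≤ a := by
  classical
  set k : Cfg → Set (ℤ × ℤ) := KS D₁ (F0 x r R D₁ ζ) with hk
  have e1 : a = Ex Q D₁ ζ (fun _ => a) := (Ex_const hQ a).symm
  rw [e1]
  unfold Pr
  rw [Ex_split (α := Set (ℤ × ℤ)) k ({ω | FreshP x r R D₁ ω}.indicator 1),
    Ex_split (α := Set (ℤ × ℤ)) k (fun _ => a)]
  refine Finset.sum_le_sum fun K _ => ?_
  have hsub : rest D₁ K ⊆ D₁ := fun v hv => (mem_rest.1 hv).1
  set I : Cfg → ℝ := {ω | k ω = K}.indicator 1 with hI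
  have hInd : Ind (rest D₁ K) I := ind_KS K
  have hI0 : ∀ ω, 0 ≤ I ω := ind_nonneg _
  have hIz : ∀ ω, k ω ≠ K → I ω = 0 := fun ω h =>
    Set.indicator_of_notMem (show ω ∉ {ω | k ω = K} from h) _
  have h1 : Ex Q D₁ ζ (fun ω => I ω * {ω | FreshP x r R D₁ ω}.indicator 1 ω) ≤
      Ex Q D₁ ζ (fun ω => I ω * {ω | CrD x r R (rest D₁ K) ω}.indicator 1 ω) := by
    refine Ex_mono hQ fun S hS => ?_
    by_cases h : k (cf D₁ ζ S) = K
    · refine mul_le_mul_of_nonneg_left ?_ (hI0 _)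
      by_cases h2 : FreshP x r R D₁ (cf D₁ ζ S)
      · rw [Set.indicator_of_mem (show cf D₁ ζ S ∈ {ω | FreshP x r R D₁ ω} from h2),
          Set.indicator_of_mem (show cf D₁ ζ S ∈ {ω | CrD x r R (rest D₁ K) ω} from
            fresh_sub hD h h2)]
      · rw [Set.indicator_of_notMem (show cf D₁ ζ S ∉ {ω | FreshP x r R D₁ ω} from h2)]
        exact ind_nonneg _ _
    · rw [hIz _ h, zero_mul, zero_mul]
  refine h1.trans ?_
  rw [markov f_markov hQ hsub hζ hInd]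
  refine Ex_mono hQ fun S hS => ?_
  by_cases h : k (cf D₁ ζ S) = K
  · refine mul_le_mul_of_nonneg_left ?_ (hI0 _)
    have h2 := hU S hS
    rw [h] at h2
    exact h2
  · rw [hIz _ h, zero_mul, zero_mul]

/-- **Fresh crossings are unlikely.** -/
theorem fresh_primal {Q α C : ℝ} {m : ℕ} (hQ : 0 < Q) (hα : 0 < α) (hC : 0 < C)
    (hU : UIs Q α C m) (hr : 1 ≤ r) (hrR : r ≤ R) (hη : Good η) (hF : Fz m x R D η) :
    Pr Q D η {ω | FreshP x r R D ω} ≤ (C * 3 ^ α + 6 ^ α) * ((r : ℝ) / R) ^ α := by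
  classical
  have hsub : D ∩ Ann x r R ⊆ D := Finset.inter_subset_left
  have h1 : Pr Q D η {ω | FreshP x r R D ω} ≤ Pr Q D η {ω | FreshP x r R (D ∩ Ann x r R) ω} :=
    Pr_mono hQ fun ω hω => FreshP.congrD (fun v hv hvD => Finset.mem_inter.2 ⟨hvD, hv⟩) hω
  refine h1.trans ?_
  unfold Pr
  rw [f_markov Q (D ∩ Ann x r R) D η _ hQ hsub hη]
  refine le_trans (Ex_mono hQ fun S _ => ?_) (Ex_const hQ _).le
  have hζ := f_good.1 D η S hη
  refine fresh_aux hQ Finset.inter_subset_right hζ fun S' hS' => ?_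
  exact crD_le hQ hα hC hU hr hrR (f_good.1 _ _ S' hζ) (isl_KS hF fun v hv => cf_out hv)

/-- Fresh dual crossings. -/
theorem fresh_dual_le {Q α C : ℝ} {m : ℕ} (hQ : 0 < Q) (hα : 0 < α) (hC : 0 < C)
    (hU : UIs Q α C m) (hr : 1 ≤ r) (hrR : r ≤ R) (hη : Good η) (hF : Fz m x R D η) :
    Pr Q D η {ω | FreshD x r R D ω} ≤ (C * 3 ^ α + 6 ^ α) * ((r : ℝ) / R) ^ α := by
  refine le_trans ?_ (fresh_primal hQ hα hC hU (x := FKA.sh x) hr hrR (f_dual.1 η hη) hF.sh)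
  have h1 := f_dual.2 Q D η ({ω | FreshP (FKA.sh x) r R (D.image FKA.sh) ω}.indicator 1) hQ hη
  unfold Pr
  refine le_trans ?_ h1.symm.le
  refine Ex_mono hQ fun S _ => ?_
  by_cases h : FreshD x r R D (cf D η S)
  · rw [Set.indicator_of_mem (show cf D η S ∈ {ω | FreshD x r R D ω} from h),
      Set.indicator_of_mem (show du (cf D η S) ∈ {ω | FreshP (FKA.sh x) r R (D.image FKA.sh) ω} from
        fresh_dual h)]
    exact le_rfl
  · rw [Set.indicator_of_notMem (show cf D η S ∉ {ω | FreshD x r R D ω} from h)]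
    exact ind_nonneg _ _

/-- **Both kinds.** -/
theorem frB_of {Q α C : ℝ} {m : ℕ} (hQ : 0 < Q) (hα : 0 < α) (hC : 0 < C)
    (hU : UIs Q α C m) : FrB Q α (2 * (C * 3 ^ α + 6 ^ α)) m := by
  intro x r R hr hrR D η hη hF
  have h1 := fresh_primal hQ hα hC hU hr hrR hη hF
  have h2 := fresh_dual_le hQ hα hC hU hr hrR hη hF
  have h3 : Pr Q D η {ω | FreshP x r R D ω ∨ FreshD x r R D ω} ≤
      Pr Q D η {ω | FreshP x r R D ω} + Pr Q D η {ω | FreshD x r R D ω} :=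
    Pr_union_le hQ {ω | FreshP x r R D ω} {ω | FreshD x r R D ω}
  linarith

theorem FrB.mono {Q α C C' : ℝ} {m m' : ℕ} (h : FrB Q α C m) (hC : C ≤ C') (hm : m' ≤ m) :
    FrB Q α C' m' := by
  intro x r R hr hrR D η hη hF
  have h1 := h x r R hr hrR D η hη (hF.mono hm)
  have hr' : (1 : ℝ) ≤ r := by exact_mod_cast hr
  have hR' : (r : ℝ) ≤ R := by exact_mod_cast hrR
  have hq : 0 ≤ ((r : ℝ) / R) ^ α := Real.rpow_nonneg (div_nonneg (by linarith) (by linarith)) _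
  nlinarith [mul_le_mul_of_nonneg_right hC hq]

/-- **Fresh crossings are unlikely**, one exponent for all numbers of islands. -/
theorem frB_all {Q : ℝ} (K : Kit Q) (hU : UTc Q) :
    ∃ α, 0 < α ∧ ∀ m : ℕ, ∃ C, 0 < C ∧ FrB Q α C m := by
  obtain ⟨α, hα, h⟩ := ut_isl K hU
  refine ⟨α, hα, fun m => ?_⟩
  obtain ⟨C, hC, h⟩ := h m
  exact ⟨2 * (C * 3 ^ α + 6 ^ α), by positivity, frB_of K.pos hα (by linarith) h⟩

/-- **Fresh crossings are unlikely.** -/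
theorem frB {Q : ℝ} (K : Kit Q) (hU : UTc Q) (m : ℕ) : ∃ α C, 0 < α ∧ 0 < C ∧ FrB Q α C m := by
  obtain ⟨α, hα, h⟩ := frB_all K hU
  obtain ⟨C, hC, h⟩ := h m
  exact ⟨α, C, hα, hC, h⟩

end Vale.Agent.P167.N.QN
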