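import Vale.Agent.P167.QN.Farm
import Vale.Agent.P167.N.QN.Fresh
import Vale.Agent.P167.N.QC.FzDq

/-!
# P167, `0 < q < 1`, block Q-NF: fresh arms behind an adapted time are unlikely

`wc_nx`: the squares which are read by the interface are joined. `fz_rev`, `fz_rdq`: the domain
which remains of a lattice polygon after the exploration has no islands. `farmQ`: the bound.
-/

set_option autoImplicit false
set_option linter.unusedVariables false
set_option linter.unusedSectionVars false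

namespace Vale.Agent.P167.N.QN

open Finset Vale.Agent.P167 Vale.Agent.P167.FK Vale.Agent.P167.FKA
open Vale.Agent.P145.FB (PStep PConn)
open Vale.Agent.P167.H558 (StopSet Past StopTime Expl at')
open Vale.Agent.P167.H192 (ed cfg As dq bq rev path isEdge_ahead cfg_true mem_rev mem_dq wires)
open Vale.Agent.P167.H718 (Dq etaQ wE mem_wE)
open Vale.Agent.P167.E6 Vale.Agent.P167.E2
open Vale.Agent.P167.QN (ex_stop rdq FArmQ wires_eq dq_eq bq_eq run_congr len_congr wO_As path_run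
  hdv_run rev_rdq Ev ev_of FreshP FreshD)
open Vale.Agent.P167.N.QC
open Relation

/-! ### The squares of the interface -/

theorem cor_hdv (e : Ed) : Cor (hdv e) (ls e) ∧ Cor (hdv e) (rs e) := by
  rcases e with v | v <;> simp only [hdv, ls, rs, Cor] <;> split_ifs <;> constructor <;> simp

theorem cor_hdv_nx (ω : Cfg) (e : Ed) : Cor (hdv e) (ls (nx ω e)) ∧ Cor (hdv e) (rs (nx ω e)) := by
  rcases H192.ls_nx ω e with ⟨-, h2, h3, h4⟩ | ⟨-, h2, h3, h4⟩
  · refine ⟨?_, ?_⟩
    · rw [← h4]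
      exact (FKA.cor_of_step h2).2
    · rw [h3]
      exact (cor_hdv e).2
  · refine ⟨?_, ?_⟩
    · rw [h3]
      exact (cor_hdv e).1
    · rw [← h4]
      exact (FKA.cor_of_step h2).2

theorem ls_even (e : Ed) : ((ls e).1 + (ls e).2) % 2 = 0 := by
  rcases e with v | v <;> simp only [ls] <;> split_ifs with h <;> rw [Int.even_iff] at h <;>
    simp only <;> omega

theorem rs_odd (e : Ed) : ((rs e).1 + (rs e).2) % 2 = 1 := by
  rcases e with v | v <;> simp only [rs] <;> split_ifs with h <;> rw [Int.even_iff] at h <;>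
    simp only <;> omega

/-- Two squares with a common side. -/
theorem wa_side {ζ : Cfg} {a b s t : ℤ × ℤ} (hs : (s.1 + s.2) % 2 = 0) (ht : (t.1 + t.2) % 2 = 1)
    (h1 : Cor a s) (h2 : Cor b s) (h3 : Cor a t) (h4 : Cor b t) : Wa ζ a b := by
  cases h : ζ a
  · exact ⟨t, h3, h4, Or.inl ⟨ht, Or.inl h⟩⟩
  · exact ⟨s, h1, h2, Or.inr ⟨hs, Or.inl h⟩⟩

/-- Consecutive squares of the interface, in any configuration. -/
theorem wa_nx (ζ ω : Cfg) (e : Ed) : Wa ζ (hdv e) (hdv (nx ω e)) :=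
  wa_side (ls_even _) (rs_odd _) (cor_hdv_nx ω e).1 (cor_hdv _).1 (cor_hdv_nx ω e).2 (cor_hdv _).2

/-- **The squares of the interface are joined.** -/
theorem wc_nx {D : Finset (ℤ × ℤ)} {ζ ω : Cfg} {e : Ed} {i j : ℕ} (hij : i ≤ j)
    (h : ∀ l, i ≤ l → l ≤ j → hdv ((nx ω)^[l] e) ∉ D) :
    QC.Wc D ζ (hdv ((nx ω)^[i] e)) (hdv ((nx ω)^[j] e)) := by
  induction j, hij using Nat.le_induction with
  | base => exact ReflTransGen.refl
  | succ j hij ih =>
    refine (ih fun l h1 h2 => h l h1 (by omega)).tail ⟨h j hij (by omega), h (j + 1) (by omega) le_rfl, ?_⟩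
    rw [Function.iterate_succ_apply']
    exact wa_nx ζ ω _

section

variable {n : ℕ} {p : ZMod n → ℤ × ℤ} {k : ℕ} {S : Finset (ℤ × ℤ)}

/-- **The explored domain has no islands.** -/
theorem fz_rev (hp : IsPolygon p) (hS : Encloses p S) {ω : Cfg}
    (hω : ∀ v, v ∉ Dq S p k → ω v = etaQ p k v) (τ : ℕ) (x : ℤ × ℤ) (R : ℤ) :
    Fz 0 x R (dq p k S \ rev (dq p k S) (bq p k) (H192.me (cs p)) τ ω) ω := by
  have hn : 2 < n := hp.1
  have _ : NeZero n := ⟨by omega⟩
  rw [← dq_eq] at hω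
  set D := dq p k S with hD
  set e := H192.me (cs p) with he
  set K := rev D (bq p k) e τ ω with hK
  have hsub : D \ K ⊆ D := Finset.sdiff_subset
  have hpoly := fz_poly (k := k) hp hS x R
  rw [← dq_eq] at hpoly
  obtain ⟨P, hP, hpoly⟩ := hpoly
  refine ⟨P, hP, fun v hv h1 => ?_⟩
  by_cases hvD : v ∈ D
  · have hvK : v ∈ K := by
      by_contra h2
      exact hv (Finset.mem_sdiff.2 ⟨hvD, h2⟩)
    obtain ⟨-, i, hi, rfl⟩ := mem_rev.1 hvK
    have hall : ∀ l, l < τ → hdv (path D (bq p k) e ω l) ∉ D \ K := by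
      intro l hl h2
      obtain ⟨h3, h4⟩ := Finset.mem_sdiff.1 h2
      exact h4 (mem_rev.2 ⟨h3, l, hl, rfl⟩)
    have hc : QC.Wc (D \ K) ω (hdv (path D (bq p k) e ω 0)) (hdv (path D (bq p k) e ω i)) :=
      wc_nx (Nat.zero_le i) fun l _ h2 => hall l (by omega)
    have h0 := hall 0 (by omega)
    -- the first square has an exterior corner
    have hcor : Cor (hdv (path D (bq p k) e ω 0)) (H192.rf (fc (cs p))) := by
      have := (cor_hdv e).2
      rw [he, H192.rs_me] at this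
      exact this
    obtain ⟨f', h3, h4⟩ := far_out hp hS (fc_cs hp hS) (R + |x.1 + x.2| + 1)
    obtain ⟨w, -, h5, h6⟩ := chain_odd (D := D \ K) (η := ω) (G := Gs S) (fun w hw => by
      have h7 : w ∉ D := fun h => hw (mem_dq.1 h).1
      refine ⟨fun h => h7 (hsub h), ?_⟩
      rw [hω w h7]
      by_contra h
      rw [Bool.not_eq_false] at h
      exact hw (H718.wE_sub hp hS (etaQ_tr.1 h))) h0 (rf_odd _) hcor h3
    exact ⟨w, Or.inl (far_lv h4 h6), (wc_symm hc).trans h5⟩
  · obtain ⟨w, hw, h2⟩ := hpoly v hvD h1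
    exact ⟨w, hw, wc_mono hsub hω h2⟩

/-- **The explored domain has no islands**, the version with the edges. -/
theorem fz_rdq (hp : IsPolygon p) (hS : Encloses p S) {A : Finset (Sym2 (ℤ × ℤ))}
    (hA : A ⊆ edges S) (τ : ℕ) (x : ℤ × ℤ) (R : ℤ) :
    Fz 0 x R (Dq S p k \ rdq p k A τ) (cfg (wiredOpen p k A)) := by
  rw [← rev_rdq hA τ]
  refine fz_rev hp hS (fun v hv => ?_) τ x R
  rw [H718.mem_Dq', not_and_or, not_not] at hv
  rw [Bool.eq_iff_iff, cfg_true, etaQ_tr, H718.mem_wiredOpen]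
  constructor
  · rintro (h | h)
    · rcases hv with hv | hv
      · exact absurd (hA h) hv
      · exact hv
    · exact h
  · intro h
    right
    exact h

open Classical in
/-- **Fresh arms are unlikely.** -/
theorem farmQ {q α C : ℝ} (hq0 : 0 < q) (hA : FrB (√q) α C 0) (hp : IsPolygon p)
    (hS : Encloses p S) {Qp : Finset (Sym2 (ℤ × ℤ)) → ℕ → Prop}
    (hQp : ∀ A ⊆ edges S, ∀ A' ⊆ edges S, ∀ i, (∀ j ≤ i, run p k A j = run p k A' j) →
      Qp A i → Qp A' i) {r R : ℤ} (hr : 1 ≤ r) (hrR : r ≤ R) :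
    Final.mean q p k S (fun A => if ∃ τ, Qp A τ ∧ (∀ i < τ, ¬ Qp A i) ∧ FArmQ p k S A τ r R
      then 1 else 0) ≤ C * ((r : ℝ) / R) ^ α := by
  have hQ0 : 0 < √q := Real.sqrt_pos.2 hq0
  -- to the squares
  have h1 : Final.mean q p k S (fun A => if ∃ τ, Qp A τ ∧ (∀ i < τ, ¬ Qp A i) ∧
      FArmQ p k S A τ r R then 1 else 0) ≤
      Final.mean q p k S (fun A => {ω | Ev p k S Qp r R ω}.indicator 1 (cfg (wiredOpen p k A))) := by
    unfold Final.mean
    have hw0 : ∀ A, 0 ≤ Final.weight q p k S A := by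
      intro A
      have hs0 : 0 ≤ Final.selfDual q := by unfold Final.selfDual; positivity
      have hs1 : 0 ≤ 1 - Final.selfDual q := by
        unfold Final.selfDual
        rw [sub_nonneg, div_le_one (by positivity)]
        linarith
      unfold Final.weight
      positivity
    refine div_le_div_of_nonneg_right (Finset.sum_le_sum fun A hAm => ?_)
      (Finset.sum_nonneg fun A _ => hw0 A)
    refine mul_le_mul_of_nonneg_left ?_ (hw0 A)
    beta_reduce
    split_ifs with hc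
    · rw [Set.indicator_of_mem (show cfg (wiredOpen p k A) ∈ {ω | Ev p k S Qp r R ω} from
        ev_of hQp (Finset.mem_powerset.1 hAm) hc)]
      exact le_rfl
    · exact ind_nonneg _ _
  refine h1.trans ?_
  rw [H718.mean_eq_Ex hq0 hp hS ({ω | Ev p k S Qp r R ω}.indicator 1), ← dq_eq, ← bq_eq]
  have hη : Good (bq p k) := by rw [bq_eq]; exact H718.good_etaQ
  set D := dq p k S with hD
  set η := bq p k with hηd
  set e := H192.me (cs p) with he
  -- the stopping time
  set N : ℕ := (edges S).powerset.sup (len p k) with hN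
  have hlen : ∀ A ⊆ edges S, len p k A ≤ N := fun A hA =>
    Finset.le_sup (f := len p k) (Finset.mem_powerset.2 hA)
  have hrun : ∀ (ω : Cfg) (j : ℕ), H192.me (run p k (As S ω) j) = path D η e ω j := by
    intro ω j
    rw [hD, hηd, he, ← H192.E6path]
    rfl
  have hP : ∀ i, Past (rev D η e i) (fun ω : Cfg => Qp (As S ω) i) := by
    intro i ω ω' h
    have h1 : ∀ j ≤ i, run p k (As S ω') j = run p k (As S ω) j := fun j hj =>
      H192.me_inj (by rw [hrun, hrun]; exact H192.path_eq_of_rev h j hj)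
    exact propext ⟨hQp _ (H192.As_subset S ω') _ (H192.As_subset S ω) i h1,
      hQp _ (H192.As_subset S ω) _ (H192.As_subset S ω') i fun j hj => (h1 j hj).symm⟩
  have hex : ∀ ω : Cfg, ∃ i, Qp (As S ω) i ∨ N ≤ i := fun ω => ⟨N, Or.inr le_rfl⟩
  set κ : Cfg → ℕ := fun ω => Nat.find (hex ω) with hκ
  have hst : StopTime (rev D η e) κ := by
    refine H192.expl_rev.first (Q := fun i ω => Qp (As S ω) i ∨ N ≤ i) (fun i => ?_)
      (fun ω => Nat.find_spec (hex ω)) (fun ω i hi => Nat.find_min (hex ω) hi)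
    exact (hP i).comp (fun q => q ∨ N ≤ i)
  have hK : StopSet (at' (rev D η e) κ) := H192.expl_rev.at_stop hst
  refine ex_stop hQ0 hη hK (fun ω => H192.rev_subset _ _) fun T hT => ?_
  set ω₀ := cf D η T with hω₀
  have hg₀ : Good ω₀ := f_good.1 _ _ _ hη
  have hfz : Fz 0 (hdv (path D η e ω₀ (κ ω₀))) R (D \ at' (rev D η e) κ ω₀) ω₀ := by
    refine fz_rev hp hS (fun v hv => ?_) (κ ω₀) _ R
    rw [← dq_eq] at hv
    rw [hω₀, ← bq_eq]
    exact cf_out hv
  have h5 := hA (hdv (path D η e ω₀ (κ ω₀))) r R hr hrR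
    (D \ at' (rev D η e) κ ω₀) ω₀ hg₀ hfz
  refine le_trans ?_ h5
  unfold Pr
  refine Ex_mono hQ0 fun T' hT' => ?_
  set ω := cf (D \ at' (rev D η e) κ ω₀) ω₀ T' with hω
  -- the same past
  have h6 : ∀ i ∈ at' (rev D η e) κ ω₀, ω i = ω₀ i := fun i hi =>
    cf_out fun h => (Finset.mem_sdiff.1 h).2 hi
  have h7 : κ ω = κ ω₀ := hst ω₀ ω h6
  have h8 : at' (rev D η e) κ ω = at' (rev D η e) κ ω₀ := hK ω₀ ω h6
  have h9 : hdv (path D η e ω (κ ω)) = hdv (path D η e ω₀ (κ ω₀)) := by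
    rw [h7]
    exact congrArg hdv (H192.path_eq_of_rev h6 (κ ω₀) le_rfl)
  by_cases hE : Ev p k S Qp r R ω
  · rw [Set.indicator_of_mem (show ω ∈ {ω | Ev p k S Qp r R ω} from hE)]
    obtain ⟨τ, g1, g2, g3, g4⟩ := hE
    have hκτ : κ ω = τ := by
      rw [hκ]
      refine (Nat.find_eq_iff (hex ω)).2 ⟨Or.inl g1, fun i hi h => ?_⟩
      rcases h with h | h
      · exact g2 i hi h
      · have := hlen _ (H192.As_subset S ω)
        omega
    rw [← hκτ] at g4
    have e1 : rev (dq p k S) (bq p k) (H192.me (cs p)) (κ ω) ω = at' (rev D η e) κ ω₀ := by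
      rw [← h8]
      rfl
    rw [e1] at g4
    have e2 : hdv (path (dq p k S) (bq p k) (H192.me (cs p)) ω (κ ω)) =
        hdv (path D η e ω₀ (κ ω₀)) := h9
    rw [e2] at g4
    rw [Set.indicator_of_mem (show ω ∈ {ω | FreshP (hdv (path D η e ω₀ (κ ω₀))) r R
      (D \ at' (rev D η e) κ ω₀) ω ∨ FreshD (hdv (path D η e ω₀ (κ ω₀))) r R
      (D \ at' (rev D η e) κ ω₀) ω} from g4)]
  · rw [Set.indicator_of_notMem (show ω ∉ {ω | Ev p k S Qp r R ω} from hE)]
    exact ind_nonneg _ _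

end

end Vale.Agent.P167.N.QN
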