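import Vale.Agent.P167.N.QN.MainQ
import Vale.Agent.P167.N.QC.CrossW
import Vale.Agent.P167.N.QC.Ut

/-!
# P167, `0 < q < 1`, block Q-NF: no fjords for the random-cluster model
-/

set_option autoImplicit false

namespace Vale.Agent.P167.N.QN

open Vale.Agent.P167.QE (wq I_nfW)

/-- **No fjords**, `0 < q < 1`. -/
theorem i_nfQ {q : ℝ} (K : Kit (√q)) : I_nfW (wq q) :=
  nfW K (QC.ut K) (QC.crossW K (by linarith [K.q_lt]))

end Vale.Agent.P167.N.QN
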