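import Vale.Agent.P167.QN.MainQ
import Vale.Agent.P167.QN.DetR
import Vale.Agent.P167.N.QN.Farm

/-!
# P167, `0 < q < 1`, block Q-NF: no fjords, `I_nfW (wq q)`, from the crossing input and the bound for
one arm in a set of squares with connected complement
-/

set_option autoImplicit false
set_option linter.unusedVariables false

open MeasureTheory Filter Topology Set Metric
open scoped ENNReal

namespace Vale.Agent.P167.N.QN

open Vale.Agent.P167.FK Vale.Agent.P167.FKA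
open Vale.Agent.P167.E6 Vale.Agent.P167.E2 Vale.Agent.P167.Fjord
open Vale.Agent.P167.SLE (Cf)
open Vale.Agent.P167.S6 (FJR ctrl_Om isCompact_frontier_Om)
open Vale.Agent.P167.H327 (frontier_Om jcurve_QF QF aM_mem eventually_two)
open Vale.Agent.P167.QE (Wt WPos lwt lawW meanW wq wq_pos I_crossW I_nfW)
open Vale.Agent.P167.QN (FArmQ lwt_le nf_levelQ radiiQ pieces_of_cross S_rightQ s_leftQ s_rightQ)

/-- **No fjords** for general `q`. -/
theorem nfQ_of {q₀ α C : ℝ} (hq₀ : 0 < q₀) (hα : 0 < α) (hCpos : 0 < C)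
    (hAD : FrB (√q₀) α C 0) (hX : I_crossW (wq q₀)) : I_nfW (wq q₀) := by
  classical
  intro Φ δ N k p S hA e he r₁ hr₁ q hq
  obtain ⟨q', hq', hqq⟩ := ENNReal.lt_iff_exists_nnreal_btwn.1 hq
  have hq0 : (0 : ℝ) < q' := by exact_mod_cast hq'
  obtain ⟨R, hRpos, hRe, hRr⟩ : ∃ R : ℝ, 0 < R ∧ 16 * R ≤ e ∧ 16 * R ≤ r₁ :=
    ⟨min e r₁ / 16, by positivity, by linarith [min_le_left e r₁],
      by linarith [min_le_right e r₁]⟩
  obtain ⟨η, hη, hηR, hgate⟩ := gate1 Φ δ N k p S hA hRpos hRe hRr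
  obtain ⟨K, hK⟩ := pieces_of_cross hX Φ δ N k p S hA (r := η / 16) (by positivity)
    (q := ENNReal.ofReal (q' / 2)) (ENNReal.ofReal_pos.2 (by positivity))
  obtain ⟨ε, hε, hεη, hεq⟩ := exists_eps (C := C) hα (R := R) hη
    (show (0 : ℝ) < q' / 2 by positivity) (((K + 1 : ℕ) : ℝ) * ((K + 2 : ℕ) : ℝ))
  obtain ⟨ρ, hρ, hev⟩ := hgate ε hε
  refine ⟨ρ, hρ, ?_⟩
  filter_upwards [hev, hK, hA.2.1.eventually (gt_mem_nhds hε), eventually_two hA]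
    with i h1 h2 h3 hk1
  obtain ⟨hδ0, hk0, hkN, hp, hS⟩ := hA.1 i
  obtain ⟨-, -, c3, c4, c5, c6⟩ := radii (R := R) hδ0 h3 (by linarith)
  obtain ⟨c1, c2, c7⟩ := radiiQ (R := R) hδ0 h3 (by linarith)
  have hy : ∀ Q : Finset (Sym2 (ℤ × ℤ)) → ℕ → Prop,
      (∀ A A' : Finset (Sym2 (ℤ × ℤ)), ∀ j, (∀ l ≤ j, run (p i) (k i) A l = run (p i) (k i) A' l) →
        Q A j → Q A' j) →
      lwt (wq q₀) (p i) (k i) (S i) {ω | ∃ τ, Q ω.1 τ ∧ (∀ j < τ, ¬ Q ω.1 j) ∧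
        FArmQ (p i) (k i) (S i) ω.1 τ (⌈6 * ε / δ i⌉ + 3) ⌊R / (2 * δ i)⌋} ≤
      ENNReal.ofReal (C * (40 * ε / R) ^ α) := by
    intro Q hQ
    have h5 := farmQ (q := q₀) hq₀ hAD (k := k i) hp hS (Qp := Q)
        (fun A _ A' _ j hj => hQ A A' j hj) c3 c4
    have hw : WPos (wq q₀) := wq_pos hq₀
    have h6 : meanW (S i) (wq q₀ (N i) (p i) (k i) (S i)) (fun A => if ∃ τ, Q A τ ∧
        (∀ j < τ, ¬ Q A j) ∧ FArmQ (p i) (k i) (S i) A τ (⌈6 * ε / δ i⌉ + 3) ⌊R / (2 * δ i)⌋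
        then 1 else 0) ≤ C * (((⌈6 * ε / δ i⌉ + 3 : ℤ) : ℝ) / (⌊R / (2 * δ i)⌋ : ℤ)) ^ α := by
      refine le_trans (le_of_eq ?_) h5
      rfl
    exact (lwt_le hw h6).trans (ENNReal.ofReal_le_ofReal
      (mul_le_mul_of_nonneg_left (Real.rpow_le_rpow c5 c6 hα.le) hCpos.le))
  have hlev := nf_levelQ s_leftQ s_rightQ (lwt (wq q₀) (p i) (k i) (S i)) hδ0 hp hS hk0 hk1 hη hηR hεη h3.le
    h1 c1 c2 c7 h2 hy
  refine hlev.trans ?_
  have hy0 : 0 ≤ C * (40 * ε / R) ^ α := by positivity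
  have e6 : ∀ z : ℝ, 0 ≤ z → ((K + 1 : ℕ) : ℝ≥0∞) * (((K + 2 : ℕ) : ℝ≥0∞) *
      ENNReal.ofReal z) = ENNReal.ofReal (((K + 1 : ℕ) : ℝ) * ((K + 2 : ℕ) : ℝ) * z) := by
    intro z hz
    rw [ENNReal.ofReal_mul (by positivity), ENNReal.ofReal_mul (by positivity),
      ENNReal.ofReal_natCast, ENNReal.ofReal_natCast, mul_assoc]
  have e7 : ENNReal.ofReal (q' / 2) + ENNReal.ofReal (q' / 2) ≤ q := by
    rw [← ENNReal.ofReal_add (by positivity) (by positivity), add_halves,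
      ENNReal.ofReal_coe_nnreal]
    exact hqq.le
  refine le_trans (add_le_add le_rfl ?_) e7
  rw [e6 _ hy0]
  exact ENNReal.ofReal_le_ofReal hεq

/-- **No fjords** for the random-cluster model with `0 < q < 1`. -/
theorem nfW {q : ℝ} (K : Kit (√q)) (hU : QC.UTc (√q)) (hX : I_crossW (wq q)) : I_nfW (wq q) := by
  obtain ⟨α, C, hα, hC, h⟩ := frB K hU 0
  exact nfQ_of (Real.sqrt_pos.1 K.pos) hα hC h hX

end Vale.Agent.P167.N.QN
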